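import Mathlib

open scoped TensorProduct Pointwise

namespace Vale.Agent.Results.P261.BoundedTorsion

variable (p : ℕ) [hp : Fact p.Prime]

/-- `M` is derived `p`-complete (also called Ext-`p`-complete or `L`-complete):
the map `(x_i) ↦ (x_i - p x_{i+1})` on sequences in `M` is bijective.  Its kernel is
`Hom(Z[1/p], M)` and its cokernel is `Ext^1(Z[1/p], M)`. -/
def DerivedComplete (M : Type*) [AddCommGroup M] [Module ℤ_[p] M] : Prop :=
  Function.Bijective (fun (x : ℕ → M) (i : ℕ) => x i - (p : ℤ_[p]) • x (i + 1))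

variable {p}
variable {M : Type*} [AddCommGroup M] [Module ℤ_[p] M]

theorem DerivedComplete.uniq (hM : DerivedComplete p M) {x y : ℕ → M}
    (h : ∀ i, x i - (p : ℤ_[p]) • x (i + 1) = y i - (p : ℤ_[p]) • y (i + 1)) : x = y :=
  hM.1 (funext h)

theorem DerivedComplete.exist (hM : DerivedComplete p M) (a : ℕ → M) :
    ∃ x : ℕ → M, ∀ i, x i - (p : ℤ_[p]) • x (i + 1) = a i := by
  obtain ⟨x, hx⟩ := hM.2 a
  exact ⟨x, fun i => congrFun hx i⟩

theorem padic_exist (c : ℕ → ℤ_[p]) :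
    ∃ C : ℕ → ℤ_[p], ∀ i, C i - (p : ℤ_[p]) * C (i + 1) = c i := by
  have hsum : ∀ i, Summable (fun l : ℕ => (p : ℤ_[p]) ^ l * c (i + l)) := by
    intro i
    have hp1 : (1 : ℝ) < p := by exact_mod_cast hp.out.one_lt
    have hg : Summable (fun l : ℕ => ((p : ℝ)⁻¹) ^ l) := by
      apply summable_geometric_of_lt_one (by positivity)
      exact inv_lt_one_of_one_lt₀ hp1
    refine Summable.of_norm_bounded hg ?_
    intro l
    rw [norm_mul, norm_pow, PadicInt.norm_p]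
    calc ((p : ℝ)⁻¹) ^ l * ‖c (i + l)‖ ≤ ((p : ℝ)⁻¹) ^ l * 1 := by
          apply mul_le_mul_of_nonneg_left (PadicInt.norm_le_one _) (by positivity)
      _ = _ := by ring
  refine ⟨fun i => ∑' l : ℕ, (p : ℤ_[p]) ^ l * c (i + l), fun i => ?_⟩
  show (∑' l : ℕ, (p : ℤ_[p]) ^ l * c (i + l)) - (p : ℤ_[p]) * (∑' l : ℕ, (p : ℤ_[p]) ^ l * c (i + 1 + l)) = c i
  rw [(hsum i).tsum_eq_zero_add, ← (hsum (i + 1)).tsum_mul_left]
  have : ∀ l : ℕ, (p : ℤ_[p]) ^ (l + 1) * c (i + (l + 1)) = (p : ℤ_[p]) * ((p : ℤ_[p]) ^ l * c (i + 1 + l)) := by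
    intro l
    rw [show i + (l + 1) = i + 1 + l by ring]
    ring
  simp only [this]
  simp

theorem fg_exist {N : Submodule ℤ_[p] M} (hN : N.FG) (n : ℕ → M) (hn : ∀ i, n i ∈ N) :
    ∃ y : ℕ → M, (∀ i, y i ∈ N) ∧ ∀ i, y i - (p : ℤ_[p]) • y (i + 1) = n i := by
  obtain ⟨k, g, hg⟩ := Submodule.fg_iff_exists_fin_generating_family.1 hN
  have h1 : ∀ i, ∃ c : Fin k → ℤ_[p], ∑ j, c j • g j = n i := by
    intro i
    have := hn i
    rw [← hg] at this
    exact (Submodule.mem_span_range_iff_exists_fun _).1 this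
  choose c hc using h1
  have h2 : ∀ j : Fin k, ∃ C : ℕ → ℤ_[p], ∀ i, C i - (p : ℤ_[p]) * C (i + 1) = c i j :=
    fun j => padic_exist (fun i => c i j)
  choose C hC using h2
  refine ⟨fun i => ∑ j, C j i • g j, fun i => ?_, fun i => ?_⟩
  · rw [← hg]
    exact (Submodule.mem_span_range_iff_exists_fun _).2 ⟨fun j => C j i, rfl⟩
  · rw [← hc i, Finset.smul_sum, ← Finset.sum_sub_distrib]
    apply Finset.sum_congr rfl
    intro j _
    rw [← hC j i, sub_smul, mul_smul]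

theorem quot_complete (hM : DerivedComplete p M) {N : Submodule ℤ_[p] M} (hN : N.FG) :
    DerivedComplete p (M ⧸ N) := by
  constructor
  · intro x y hxy
    have hxy' : ∀ i, x i - (p : ℤ_[p]) • x (i + 1) = y i - (p : ℤ_[p]) • y (i + 1) :=
      fun i => congrFun hxy i
    have hx : ∀ i, ∃ u : M, N.mkQ u = x i - y i := fun i => N.mkQ_surjective _
    choose u hu using hx
    have hmem : ∀ i, u i - (p : ℤ_[p]) • u (i + 1) ∈ N := by
      intro i
      rw [← Submodule.Quotient.mk_eq_zero, ← Submodule.mkQ_apply, map_sub, map_smul, hu, hu]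
      have := hxy' i
      rw [smul_sub]
      rw [sub_eq_sub_iff_add_eq_add] at this
      rw [sub_sub_sub_comm, sub_eq_zero]
      exact hxy' i
    obtain ⟨v, hv, hv2⟩ := fg_exist hN _ hmem
    have huv : u = v := hM.uniq (fun i => (hv2 i).symm)
    funext i
    have : N.mkQ (u i) = 0 := by
      rw [huv, Submodule.mkQ_apply, Submodule.Quotient.mk_eq_zero]
      exact hv i
    rw [hu] at this
    exact sub_eq_zero.1 this
  · intro a
    have ha : ∀ i, ∃ u : M, N.mkQ u = a i := fun i => N.mkQ_surjective _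
    choose b hb using ha
    obtain ⟨x, hx⟩ := hM.exist b
    refine ⟨fun i => N.mkQ (x i), ?_⟩
    funext i
    show N.mkQ (x i) - (p : ℤ_[p]) • N.mkQ (x (i + 1)) = a i
    rw [← map_smul, ← map_sub, hx, hb]

theorem nakayama (hM : DerivedComplete p M) {N : Submodule ℤ_[p] M} (hN : N.FG)
    (h : ∀ m : M, ∃ n ∈ N, ∃ m' : M, m = n + (p : ℤ_[p]) • m') : N = ⊤ := by
  choose nn hnn rr hrr using h
  rw [eq_top_iff]
  intro m _
  let s : ℕ → M := fun i => Nat.rec m (fun _ x => rr x) i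
  have hs : ∀ i, s i - (p : ℤ_[p]) • s (i + 1) = nn (s i) := by
    intro i
    have : s (i + 1) = rr (s i) := rfl
    rw [this]
    have := hrr (s i)
    rw [sub_eq_iff_eq_add]
    exact this
  obtain ⟨y, hy, hy2⟩ := fg_exist hN (fun i => nn (s i)) (fun i => hnn _)
  have : s = y := hM.uniq (fun i => by rw [hs, hy2])
  have h0 : s 0 = m := rfl
  rw [← h0, this]
  exact hy 0

theorem partial_sum {z a : ℕ → M} (hz : ∀ i, z i - (p : ℤ_[p]) • z (i + 1) = a i) (i : ℕ) :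
    z 0 = ∑ l ∈ Finset.range i, (p : ℤ_[p]) ^ l • a l + (p : ℤ_[p]) ^ i • z i := by
  induction i with
  | zero => simp
  | succ i ih =>
    rw [Finset.sum_range_succ, ← hz i, ih, smul_sub, pow_succ, mul_smul]
    abel

theorem zero_of_divisible (hM : DerivedComplete p M) (a : ℕ)
    (h : ∀ (x : M) (j : ℕ), ∃ y : M, (p : ℤ_[p]) ^ a • x = (p : ℤ_[p]) ^ j • y) (x : M) :
    (p : ℤ_[p]) ^ a • x = 0 := by
  have h1 : ∀ x : M, ∃ y : M, (p : ℤ_[p]) ^ a • x = (p : ℤ_[p]) ^ (a + 1) • y := fun x => h x (a + 1)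
  choose r hr using h1
  let s : ℕ → M := fun i => Nat.rec x (fun _ u => r u) i
  have hs : ∀ i, s (i + 1) = r (s i) := fun i => rfl
  have key : (fun i => (p : ℤ_[p]) ^ a • s i) = fun _ => (0 : M) := by
    apply hM.uniq
    intro i
    simp only [smul_zero, sub_zero]
    rw [hs, hr (s i), pow_succ', mul_smul, sub_self]
  exact congrFun key 0

theorem bounded_of_torsion (hM : DerivedComplete p M)
    (ht : ∀ x : M, ∃ k : ℕ, (p : ℤ_[p]) ^ k • x = 0) :
    ∃ a : ℕ, ∀ x : M, (p : ℤ_[p]) ^ a • x = 0 := by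
  by_contra hcon
  have h : ∀ a : ℕ, ∃ (x : M) (j : ℕ), ∀ y : M, (p : ℤ_[p]) ^ a • x ≠ (p : ℤ_[p]) ^ j • y := by
    intro a
    by_contra h2
    push Not at h2
    exact hcon ⟨a, zero_of_divisible hM a h2⟩
  choose X J hXJ using h
  choose K hK using ht
  let st : ℕ → ℕ × ℕ := fun i => Nat.rec (0, 0)
    (fun i s => (s.1 + J (i + s.1 + s.2), s.2 + K (X (i + s.1 + s.2)) + 1)) i
  let f : ℕ → ℕ := fun i => (st i).1
  let N : ℕ → ℕ := fun i => (st i).2
  let x : ℕ → M := fun i => X (i + f i + N i)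
  have hf : ∀ i, f (i + 1) = f i + J (i + f i + N i) := fun i => rfl
  have hN : ∀ i, N (i + 1) = N i + K (x i) + 1 := fun i => rfl
  have hfmono : Monotone f := monotone_nat_of_le_succ (fun i => by rw [hf]; omega)
  have hNmono : Monotone N := monotone_nat_of_le_succ (fun i => by rw [hN]; omega)
  have hNi : ∀ i, i ≤ N i := by
    intro i
    induction i with
    | zero => exact Nat.zero_le _
    | succ i ih => rw [hN]; omega
  have hkill : ∀ i l, l < i → (p : ℤ_[p]) ^ N i • x l = 0 := by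
    intro i l hl
    have h1 : K (x l) ≤ N i := by
      have := hNmono (Nat.succ_le_of_lt hl)
      have h2 := hN l
      simp only [Nat.succ_eq_add_one] at this
      omega
    obtain ⟨c, hc⟩ := Nat.exists_eq_add_of_le h1
    rw [hc, add_comm, pow_add, mul_smul, hK, smul_zero]
  obtain ⟨z, hz⟩ := hM.exist (fun i => (p : ℤ_[p]) ^ f i • x i)
  have htail : ∀ i, ∃ w : M, z i = (p : ℤ_[p]) ^ f i • w := by
    intro i
    obtain ⟨w, hw⟩ := hM.exist (fun l => (p : ℤ_[p]) ^ (f (i + l) - f i) • x (i + l))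
    refine ⟨w 0, ?_⟩
    have : (fun l => z (i + l)) = fun l => (p : ℤ_[p]) ^ f i • w l := by
      apply hM.uniq
      intro l
      have h1 := hz (i + l)
      rw [show i + (l + 1) = i + l + 1 by ring, h1, smul_comm, ← smul_sub, hw, ← mul_smul, ← pow_add]
      congr 2
      have := hfmono (Nat.le_add_right i l)
      omega
    exact congrFun this 0
  have hne : ∀ i, (p : ℤ_[p]) ^ N i • z 0 ≠ 0 := by
    intro i h0
    obtain ⟨w, hw⟩ := htail (i + 1)
    rw [partial_sum hz (i + 1), Finset.sum_range_succ, smul_add, smul_add, Finset.smul_sum] at h0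
    have hzero : ∑ l ∈ Finset.range i, (p : ℤ_[p]) ^ N i • (p : ℤ_[p]) ^ l • (p : ℤ_[p]) ^ f l • x l = 0 := by
      apply Finset.sum_eq_zero
      intro l hl
      rw [smul_comm, smul_comm ((p : ℤ_[p]) ^ N i), hkill i l (Finset.mem_range.1 hl), smul_zero,
        smul_zero]
    rw [hzero, zero_add, hw, hf] at h0
    apply hXJ (i + f i + N i) (-((p : ℤ_[p]) ^ (N i + (i + 1) + f i) • w))
    rw [smul_neg, eq_neg_iff_add_eq_zero, ← h0]
    simp only [← mul_smul, ← pow_add]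
    congr 3 <;> ring
  exact hne (K (z 0)) (by
    obtain ⟨c, hc⟩ := Nat.exists_eq_add_of_le (hNi (K (z 0)))
    rw [hc, add_comm, pow_add, mul_smul, hK, smul_zero])

/-- a nonzero `p`-adic integer is a unit times a power of `p`: transfer of membership. -/
theorem pow_smul_mem_of_smul_mem {N : Submodule ℤ_[p] M} {c : ℤ_[p]} (hc : c ≠ 0) {m : M}
    (h : c • m ∈ N) : ∃ k : ℕ, (p : ℤ_[p]) ^ k • m ∈ N := by
  refine ⟨c.valuation, ?_⟩
  have h1 := PadicInt.unitCoeff_spec hc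
  have h2 : (p : ℤ_[p]) ^ c.valuation • m = ((PadicInt.unitCoeff hc)⁻¹ : ℤ_[p]ˣ).val • (c • m) := by
    have h3 : ((PadicInt.unitCoeff hc)⁻¹ : ℤ_[p]ˣ).val * c = (p : ℤ_[p]) ^ c.valuation := by
      calc ((PadicInt.unitCoeff hc)⁻¹ : ℤ_[p]ˣ).val * c
          = ((PadicInt.unitCoeff hc)⁻¹ : ℤ_[p]ˣ).val *
              ((PadicInt.unitCoeff hc : ℤ_[p]) * (p : ℤ_[p]) ^ c.valuation) := by rw [← h1]
        _ = _ := by rw [← mul_assoc, Units.inv_mul, one_mul]
    rw [← mul_smul, h3]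
  rw [h2]
  exact N.smul_mem _ h

theorem exists_fg_of_rational_finite (hQ : Module.Finite ℚ_[p] (ℚ_[p] ⊗[ℤ_[p]] M)) :
    ∃ N : Submodule ℤ_[p] M, N.FG ∧ ∀ m : M, ∃ k : ℕ, (p : ℤ_[p]) ^ k • m ∈ N := by
  let S := nonZeroDivisors ℤ_[p]
  let f : M →ₗ[ℤ_[p]] ℚ_[p] ⊗[ℤ_[p]] M := TensorProduct.mk ℤ_[p] ℚ_[p] M 1
  have hloc : IsLocalizedModule S f :=
    (isLocalizedModule_iff_isBaseChange S ℚ_[p] f).2 (TensorProduct.isBaseChange _ _ _)
  obtain ⟨n, s, hs⟩ := Module.Finite.exists_fin (R := ℚ_[p]) (M := ℚ_[p] ⊗[ℤ_[p]] M)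
  have h1 : ∀ j, ∃ x : M × S, x.2 • s j = f x.1 := fun j => IsLocalizedModule.surj S f (s j)
  choose x hx using h1
  refine ⟨Submodule.span ℤ_[p] (Set.range fun j => (x j).1), Submodule.fg_span (Set.finite_range _), ?_⟩
  intro m
  have hm : f m ∈ Submodule.span ℚ_[p] (Set.range s) := by rw [hs]; trivial
  obtain ⟨q, hq⟩ := (Submodule.mem_span_range_iff_exists_fun _).1 hm
  -- rewrite s j as a rational multiple of f (x j).1
  have hsj : ∀ j, s j = (algebraMap ℤ_[p] ℚ_[p] ((x j).2 : ℤ_[p]))⁻¹ • f (x j).1 := by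
    intro j
    have hne : algebraMap ℤ_[p] ℚ_[p] ((x j).2 : ℤ_[p]) ≠ 0 := by
      have := nonZeroDivisors.ne_zero (x j).2.2
      simp [this]
    rw [← hx j, Submonoid.smul_def, ← algebraMap_smul ℚ_[p] ((x j).2 : ℤ_[p]) (s j), ← mul_smul,
      inv_mul_cancel₀ hne, one_smul]
  obtain ⟨b, hb⟩ := IsLocalization.exist_integer_multiples_of_finite S
    (fun j => q j * (algebraMap ℤ_[p] ℚ_[p] ((x j).2 : ℤ_[p]))⁻¹)
  choose r hr using hb
  have h2 : f ((b : ℤ_[p]) • m - ∑ j, r j • (x j).1) = 0 := by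
    rw [map_sub, map_smul, map_sum, ← hq, Finset.smul_sum, ← Finset.sum_sub_distrib]
    apply Finset.sum_eq_zero
    intro j _
    rw [map_smul, ← algebraMap_smul ℚ_[p] (r j), hr j]
    conv_lhs => rw [hsj j]
    rw [← algebraMap_smul ℚ_[p] (b : ℤ_[p]), ← mul_smul, ← mul_smul, Algebra.smul_def, mul_assoc,
      sub_self]
  obtain ⟨c, hc⟩ := (IsLocalizedModule.eq_zero_iff S f).1 h2
  have hmem : ((c : ℤ_[p]) * (b : ℤ_[p])) • m ∈ Submodule.span ℤ_[p] (Set.range fun j => (x j).1) := by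
    rw [Submonoid.smul_def, smul_sub, sub_eq_zero, ← mul_smul] at hc
    rw [hc]
    apply Submodule.smul_mem
    apply Submodule.sum_mem
    intro j _
    exact Submodule.smul_mem _ _ (Submodule.subset_span ⟨j, rfl⟩)
  exact pow_smul_mem_of_smul_mem
    (mul_ne_zero (nonZeroDivisors.ne_zero c.2) (nonZeroDivisors.ne_zero b.2)) hmem

theorem finite_of_killed {P : Type*} [AddCommGroup P] [Module ℤ_[p] P] [Module.Finite ℤ_[p] P]
    (h : ∀ x : P, (p : ℤ_[p]) • x = 0) : Finite P := by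
  obtain ⟨n, s, hs⟩ := Module.Finite.exists_fin (R := ℤ_[p]) (M := P)
  let Φ : (Fin n → Fin p) → P := fun c => ∑ j, ((c j : ℕ) : ℤ_[p]) • s j
  apply Finite.of_surjective Φ
  intro y
  have hy : y ∈ Submodule.span ℤ_[p] (Set.range s) := by rw [hs]; trivial
  obtain ⟨c, hc⟩ := (Submodule.mem_span_range_iff_exists_fun _).1 hy
  have h1 : ∀ j, ∃ a : Fin p, ∃ d : ℤ_[p], c j = ((a : ℕ) : ℤ_[p]) + d * (p : ℤ_[p]) := by
    intro j
    obtain ⟨a, ha, ha2⟩ := PadicInt.exists_mem_range (c j)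
    rw [PadicInt.maximalIdeal_eq_span_p, Ideal.mem_span_singleton'] at ha2
    obtain ⟨d, hd⟩ := ha2
    exact ⟨⟨a, ha⟩, d, by simp only; rw [hd]; ring⟩
  choose a d had using h1
  refine ⟨a, ?_⟩
  rw [← hc]
  apply Finset.sum_congr rfl
  intro j _
  rw [had j, add_smul, mul_smul, h, smul_zero, add_zero]

theorem mem_torsion_iff_pow (x : M) :
    x ∈ Submodule.torsion ℤ_[p] M ↔ ∃ k : ℕ, (p : ℤ_[p]) ^ k • x = 0 := by
  rw [Submodule.mem_torsion_iff]
  constructor
  · rintro ⟨a, ha⟩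
    have h : (a : ℤ_[p]) • x ∈ (⊥ : Submodule ℤ_[p] M) := by
      rw [Submodule.mem_bot]; exact ha
    obtain ⟨k, hk⟩ := pow_smul_mem_of_smul_mem (nonZeroDivisors.ne_zero a.2) h
    exact ⟨k, by simpa using hk⟩
  · rintro ⟨k, hk⟩
    have hp0 : (p : ℤ_[p]) ≠ 0 := by exact_mod_cast hp.out.ne_zero
    exact ⟨⟨(p : ℤ_[p]) ^ k, mem_nonZeroDivisors_of_ne_zero (pow_ne_zero _ hp0)⟩, hk⟩

theorem finite_pow_torsion (h : {x : M | (p : ℤ_[p]) • x = 0}.Finite) (k : ℕ) :
    {x : M | (p : ℤ_[p]) ^ k • x = 0}.Finite := by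
  induction k with
  | zero => simp
  | succ k ih =>
    apply Set.Finite.of_finite_fibers (fun x : M => (p : ℤ_[p]) • x)
    · apply ih.subset
      rintro _ ⟨x, hx, rfl⟩
      simp only [Set.mem_ofPred_eq] at hx ⊢
      rw [← mul_smul, ← pow_succ]
      exact hx
    · rintro _ ⟨x, _, rfl⟩
      apply (h.image (fun y => y + x)).subset
      rintro y ⟨_, hy⟩
      simp only [Set.mem_preimage, Set.mem_singleton_iff] at hy
      refine ⟨y - x, ?_, by simp⟩
      simp only [Set.mem_ofPred_eq]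
      rw [smul_sub, hy, sub_self]

/-- With finite-dimensional rationalization, a power of `p` carries `M` into a f.g. submodule. -/
theorem exists_pow_smul_mem (hM : DerivedComplete p M)
    (hQ : Module.Finite ℚ_[p] (ℚ_[p] ⊗[ℤ_[p]] M)) :
    ∃ N : Submodule ℤ_[p] M, N.FG ∧ ∃ a : ℕ, ∀ m : M, (p : ℤ_[p]) ^ a • m ∈ N := by
  obtain ⟨N, hN, hN2⟩ := exists_fg_of_rational_finite hQ
  refine ⟨N, hN, ?_⟩
  have hq := quot_complete hM hN
  have ht : ∀ x : M ⧸ N, ∃ k : ℕ, (p : ℤ_[p]) ^ k • x = 0 := by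
    intro x
    obtain ⟨m, rfl⟩ := N.mkQ_surjective x
    obtain ⟨k, hk⟩ := hN2 m
    refine ⟨k, ?_⟩
    rw [← map_smul, Submodule.mkQ_apply, Submodule.Quotient.mk_eq_zero]
    exact hk
  obtain ⟨a, ha⟩ := bounded_of_torsion hq ht
  refine ⟨a, fun m => ?_⟩
  have := ha (N.mkQ m)
  rw [← map_smul, Submodule.mkQ_apply, Submodule.Quotient.mk_eq_zero] at this
  exact this

theorem bounded_torsion (hM : DerivedComplete p M)
    (hQ : Module.Finite ℚ_[p] (ℚ_[p] ⊗[ℤ_[p]] M)) :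
    ∃ c : ℕ, ∀ x ∈ Submodule.torsion ℤ_[p] M, (p : ℤ_[p]) ^ c • x = 0 := by
  obtain ⟨N, hN, a, ha⟩ := exists_pow_smul_mem hM hQ
  have hnoeth : IsNoetherian ℤ_[p] N := isNoetherian_of_fg_of_noetherian N hN
  have hfg : (Submodule.torsion ℤ_[p] M ⊓ N).FG := isNoetherian_submodule.1 hnoeth _ inf_le_right
  obtain ⟨n, g, hg⟩ := Submodule.fg_iff_exists_fin_generating_family.1 hfg
  have h1 : ∀ j, ∃ k : ℕ, (p : ℤ_[p]) ^ k • g j = 0 := by
    intro j
    have : g j ∈ Submodule.torsion ℤ_[p] M ⊓ N := by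
      rw [← hg]; exact Submodule.subset_span ⟨j, rfl⟩
    exact (mem_torsion_iff_pow _).1 this.1
  choose k hk using h1
  let b := ∑ j, k j
  have h2 : Submodule.torsion ℤ_[p] M ⊓ N ≤ Submodule.torsionBy ℤ_[p] M ((p : ℤ_[p]) ^ b) := by
    rw [← hg, Submodule.span_le]
    rintro _ ⟨j, rfl⟩
    simp only [SetLike.mem_coe, Submodule.mem_torsionBy_iff]
    have hle : k j ≤ b := Finset.single_le_sum (f := k) (fun _ _ => Nat.zero_le _) (Finset.mem_univ j)
    obtain ⟨e, he⟩ := Nat.exists_eq_add_of_le hle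
    rw [he, add_comm, pow_add, mul_smul, hk, smul_zero]
  refine ⟨b + a, fun x hx => ?_⟩
  have h3 : (p : ℤ_[p]) ^ a • x ∈ Submodule.torsion ℤ_[p] M ⊓ N :=
    ⟨Submodule.smul_mem _ _ hx, ha x⟩
  have := h2 h3
  rw [Submodule.mem_torsionBy_iff] at this
  rw [pow_add, mul_smul]
  exact this

theorem finite_quot_torsion (hM : DerivedComplete p M)
    (hQ : Module.Finite ℚ_[p] (ℚ_[p] ⊗[ℤ_[p]] M)) :
    Module.Finite ℤ_[p] (M ⧸ Submodule.torsion ℤ_[p] M) := by
  obtain ⟨N, hN, a, ha⟩ := exists_pow_smul_mem hM hQ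
  let T := Submodule.torsion ℤ_[p] M
  let P : Submodule ℤ_[p] (M ⧸ T) := N.map T.mkQ
  have hP : P.FG := hN.map _
  have hnoeth : IsNoetherian ℤ_[p] P := isNoetherian_of_fg_of_noetherian P hP
  have hmem : ∀ y : M ⧸ T, (LinearMap.lsmul ℤ_[p] (M ⧸ T) ((p : ℤ_[p]) ^ a)) y ∈ P := by
    intro y
    obtain ⟨m, rfl⟩ := T.mkQ_surjective y
    rw [LinearMap.lsmul_apply, ← map_smul]
    exact Submodule.mem_map_of_mem (ha m)
  let ψ : (M ⧸ T) →ₗ[ℤ_[p]] P := LinearMap.codRestrict P _ hmem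
  apply Module.Finite.of_injective ψ
  intro y z hyz
  have h1 : (p : ℤ_[p]) ^ a • y = (p : ℤ_[p]) ^ a • z := congrArg Subtype.val hyz
  have hp0 : (p : ℤ_[p]) ^ a ≠ 0 := pow_ne_zero _ (by exact_mod_cast hp.out.ne_zero)
  exact smul_right_injective _ hp0 h1

theorem finite_iff_quot (hM : DerivedComplete p M) :
    Module.Finite ℤ_[p] M ↔
      Finite (M ⧸ (Ideal.span {(p : ℤ_[p])} • ⊤ : Submodule ℤ_[p] M)) := by
  constructor
  · intro h
    apply finite_of_killed (p := p)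
    intro x
    obtain ⟨m, rfl⟩ := Submodule.mkQ_surjective _ x
    rw [← map_smul, Submodule.mkQ_apply, Submodule.Quotient.mk_eq_zero]
    exact Submodule.smul_mem_smul (Ideal.mem_span_singleton_self _) trivial
  · intro h
    let I : Submodule ℤ_[p] M := Ideal.span {(p : ℤ_[p])} • ⊤
    have h1 : ∀ y : M ⧸ I, ∃ m : M, I.mkQ m = y := fun y => I.mkQ_surjective y
    choose rep hrep using h1
    let N : Submodule ℤ_[p] M := Submodule.span ℤ_[p] (Set.range rep)
    have hN : N.FG := Submodule.fg_span (Set.finite_range _)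
    have htop : N = ⊤ := by
      apply nakayama hM hN
      intro m
      refine ⟨rep (I.mkQ m), Submodule.subset_span ⟨_, rfl⟩, ?_⟩
      have h2 : m - rep (I.mkQ m) ∈ I := by
        rw [← Submodule.Quotient.mk_eq_zero, ← Submodule.mkQ_apply, map_sub, hrep, sub_self]
      have h3 : m - rep (I.mkQ m) ∈ (p : ℤ_[p]) • (⊤ : Submodule ℤ_[p] M) := by
        rw [← Submodule.ideal_span_singleton_smul]; exact h2
      obtain ⟨m', _, hm'⟩ := (Submodule.mem_smul_pointwise_iff_exists _ _ _).1 h3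
      exact ⟨m', by rw [hm']; abel⟩
    exact ⟨htop ▸ hN⟩

theorem finite_iff_torsion (hM : DerivedComplete p M)
    (hQ : Module.Finite ℚ_[p] (ℚ_[p] ⊗[ℤ_[p]] M)) :
    Module.Finite ℤ_[p] M ↔ {x : M | (p : ℤ_[p]) • x = 0}.Finite := by
  constructor
  · intro h
    have h1 : Module.Finite ℤ_[p] (Submodule.torsionBy ℤ_[p] M (p : ℤ_[p])) := inferInstance
    have h2 : Finite (Submodule.torsionBy ℤ_[p] M (p : ℤ_[p])) := by
      apply finite_of_killed (p := p)
      rintro ⟨x, hx⟩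
      ext
      exact (Submodule.mem_torsionBy_iff _ _).1 hx
    have h3 : ((Submodule.torsionBy ℤ_[p] M (p : ℤ_[p]) : Submodule ℤ_[p] M) : Set M).Finite :=
      Set.toFinite _
    apply h3.subset
    intro x hx
    exact (Submodule.mem_torsionBy_iff _ _).2 hx
  · intro h
    obtain ⟨c, hc⟩ := bounded_torsion hM hQ
    have h1 : ((Submodule.torsion ℤ_[p] M : Submodule ℤ_[p] M) : Set M).Finite :=
      (finite_pow_torsion h c).subset (fun x hx => hc x hx)
    have h2 : Finite (Submodule.torsion ℤ_[p] M) := h1.to_subtype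
    have h3 : Module.Finite ℤ_[p] (Submodule.torsion ℤ_[p] M) := Module.Finite.of_finite
    have h4 := finite_quot_torsion hM hQ
    exact Module.Finite.of_submodule_quotient (Submodule.torsion ℤ_[p] M)

theorem splitting (hM : DerivedComplete p M)
    (hQ : Module.Finite ℚ_[p] (ℚ_[p] ⊗[ℤ_[p]] M)) :
    ∃ r : ℕ, Nonempty (M ≃ₗ[ℤ_[p]] (Submodule.torsion ℤ_[p] M × (Fin r → ℤ_[p]))) := by
  have h4 := finite_quot_torsion hM hQ
  let T := Submodule.torsion ℤ_[p] M
  have hfree : Module.Free ℤ_[p] (M ⧸ T) := Module.free_of_finite_type_torsion_free'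
  obtain ⟨σ, hσ⟩ := Module.projective_lifting_property T.mkQ LinearMap.id T.mkQ_surjective
  have hσ' : ∀ y, T.mkQ (σ y) = y := fun y => LinearMap.congr_fun hσ y
  let π : M →ₗ[ℤ_[p]] M := LinearMap.id - σ ∘ₗ T.mkQ
  have hπ : ∀ m, π m = m - σ (T.mkQ m) := fun m => rfl
  have hmem : ∀ m : M, π m ∈ T := by
    intro m
    rw [← Submodule.Quotient.mk_eq_zero, ← Submodule.mkQ_apply, hπ, map_sub, hσ', sub_self]
  let e : M ≃ₗ[ℤ_[p]] (T × (M ⧸ T)) :=
    LinearEquiv.ofLinearMap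
      (LinearMap.prod (LinearMap.codRestrict T π hmem) T.mkQ)
      (LinearMap.coprod T.subtype σ)
      (by
        apply LinearMap.ext
        rintro ⟨t, y⟩
        have ht : T.mkQ (t : M) = 0 := by
          rw [Submodule.mkQ_apply, Submodule.Quotient.mk_eq_zero]; exact t.2
        have h1 : T.mkQ ((t : M) + σ y) = y := by rw [map_add, ht, hσ', zero_add]
        ext
        · show π ((t : M) + σ y) = t
          rw [hπ, h1]; abel
        · exact h1)
      (by
        apply LinearMap.ext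
        intro m
        show π m + σ (T.mkQ m) = m
        rw [hπ]; abel)
  refine ⟨Module.finrank ℤ_[p] (M ⧸ T), ⟨e.trans (LinearEquiv.prodCongr (LinearEquiv.refl _ _)
    (Module.finBasis ℤ_[p] (M ⧸ T)).equivFun)⟩⟩

/-- **Main result.**  Let `M` be a derived `p`-complete `ℤ_p`-module whose rationalization
`ℚ_p ⊗ M` is finite dimensional.  Then `M ≅ T × ℤ_p^r` where `T` (the torsion submodule) is
killed by a fixed power `p^c`; and `M` is finitely generated iff it has finitely many elements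
killed by `p`, iff `M / pM` is finite. -/
theorem result (p : ℕ) [Fact p.Prime] (M : Type*) [AddCommGroup M] [Module ℤ_[p] M]
    (hM : DerivedComplete p M) (hQ : Module.Finite ℚ_[p] (ℚ_[p] ⊗[ℤ_[p]] M)) :
    (∃ c : ℕ, ∀ x ∈ Submodule.torsion ℤ_[p] M, (p : ℤ_[p]) ^ c • x = 0) ∧
    (∃ r : ℕ, Nonempty (M ≃ₗ[ℤ_[p]] (Submodule.torsion ℤ_[p] M × (Fin r → ℤ_[p])))) ∧
    (Module.Finite ℤ_[p] M ↔ {x : M | (p : ℤ_[p]) • x = 0}.Finite) ∧
    (Module.Finite ℤ_[p] M ↔
      Finite (M ⧸ (Ideal.span {(p : ℤ_[p])} • ⊤ : Submodule ℤ_[p] M))) :=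
  ⟨bounded_torsion hM hQ, splitting hM hQ, finite_iff_torsion hM hQ, finite_iff_quot hM⟩

end Vale.Agent.Results.P261.BoundedTorsion
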